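import Vale.Agent.P272.Sz.Det

/-!
# P284 (helper837), project D: Gram determinants and bounds of the metric
-/

open scoped ComplexOrder ComplexConjugate Matrix

noncomputable section

namespace Vale.Agent.P284.H837.D

variable {n R : ℕ}

/-- the determinant is monotone on positive semidefinite matrices -/
theorem det_mono_psd {A B : Matrix (Fin R) (Fin R) ℂ} (hA : A.PosSemidef)
    (hAB : (B - A).PosSemidef) : A.det.re ≤ B.det.re := by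
  have hB : B.PosSemidef := by
    have := hA.add hAB
    rwa [add_sub_cancel] at this
  by_cases h : A.det = 0
  · rw [h, Complex.zero_re]
    exact (Complex.le_def.1 hB.det_nonneg).1
  · have hP : A.PosDef := (hA.posDef_iff_isUnit).2 ((Matrix.isUnit_iff_isUnit_det A).2
      (isUnit_iff_ne_zero.2 h))
    exact (Complex.le_def.1 (Vale.Agent.P272.Sz.det_le_det hP hAB)).1

theorem det_psd_nonneg {A : Matrix (Fin R) (Fin R) ℂ} (hA : A.PosSemidef) : 0 ≤ A.det.re :=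
  (Complex.le_def.1 hA.det_nonneg).1

/-- `w ≤ C` implies `w⁻¹ ≥ C⁻¹` -/
theorem inv_ge {w : Matrix (Fin n) (Fin n) ℂ} {C : ℝ} (hC : 0 < C) (hw : w.PosDef)
    (h : ((C : ℂ) • 1 - w).PosSemidef) : (w⁻¹ - ((C⁻¹ : ℝ) : ℂ) • 1).PosSemidef := by
  have hu : IsUnit w.det := (Matrix.isUnit_iff_isUnit_det w).1 hw.isUnit
  set D : Matrix (Fin n) (Fin n) ℂ := w⁻¹ - ((C⁻¹ : ℝ) : ℂ) • 1 with hD
  have hDH : Dᴴ = D := by
    rw [hD, Matrix.conjTranspose_sub, Matrix.conjTranspose_smul, Matrix.conjTranspose_one,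
      Complex.star_def, Complex.conj_ofReal, hw.inv.isHermitian.eq]
  have hC' : (C : ℂ) ≠ 0 := by exact_mod_cast hC.ne'
  have e1 : D = Dᴴ * w * D + ((C⁻¹ ^ 2 : ℝ) : ℂ) • ((C : ℂ) • 1 - w) := by
    rw [hDH, hD]
    have a1 : w⁻¹ * w = 1 := Matrix.nonsing_inv_mul w hu
    have a2 : w * w⁻¹ = 1 := Matrix.mul_nonsing_inv w hu
    simp only [Matrix.sub_mul, Matrix.mul_sub, Matrix.smul_mul, Matrix.mul_smul, Matrix.one_mul,
      Matrix.mul_one, a1, a2, smul_sub, smul_smul]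
    push_cast
    have a3 : ((C : ℂ)⁻¹ ^ 2 * (C : ℂ)) = (C : ℂ)⁻¹ := by field_simp
    have a4 : ((C : ℂ)⁻¹ * (C : ℂ)⁻¹) = (C : ℂ)⁻¹ ^ 2 := by ring
    rw [a3]
    simp only [a4]
    abel
  rw [e1]
  refine (hw.posSemidef.conjTranspose_mul_mul_same D).add (h.smul ?_)
  have : (0 : ℝ) ≤ C⁻¹ ^ 2 := by positivity
  exact_mod_cast this

theorem gram_psd (G : Matrix (Fin n) (Fin R) ℂ) : (Gᴴ * G).PosSemidef :=
  Matrix.posSemidef_conjTranspose_mul_self G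

theorem gram_nonneg (G : Matrix (Fin n) (Fin R) ℂ) : 0 ≤ (Gᴴ * G).det.re :=
  det_psd_nonneg (gram_psd G)

theorem det_real_smul (c : ℝ) (A : Matrix (Fin R) (Fin R) ℂ) :
    (((c : ℂ) • A).det).re = c ^ R * A.det.re := by
  rw [Matrix.det_smul, Fintype.card_fin]
  have : ((c : ℂ) ^ R) = ((c ^ R : ℝ) : ℂ) := by push_cast; rfl
  rw [this, Complex.re_ofReal_mul]

/-- Gram determinants for `w⁻¹` and for the Euclidean metric -/
theorem gram_ge {w : Matrix (Fin n) (Fin n) ℂ} {C : ℝ} (hC : 0 < C) (hw : w.PosDef)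
    (h : ((C : ℂ) • 1 - w).PosSemidef) (G : Matrix (Fin n) (Fin R) ℂ) :
    C⁻¹ ^ R * (Gᴴ * G).det.re ≤ (Gᴴ * w⁻¹ * G).det.re := by
  rw [← det_real_smul]
  refine det_mono_psd ?_ ?_
  · refine (gram_psd G).smul ?_
    have : (0 : ℝ) ≤ C⁻¹ := by positivity
    exact_mod_cast this
  · have e1 : Gᴴ * w⁻¹ * G - ((C⁻¹ : ℝ) : ℂ) • (Gᴴ * G) =
        Gᴴ * (w⁻¹ - ((C⁻¹ : ℝ) : ℂ) • 1) * G := by
      simp only [Matrix.mul_sub, Matrix.sub_mul, Matrix.mul_smul, Matrix.smul_mul, Matrix.mul_one]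
    rw [e1]
    exact (inv_ge hC hw h).conjTranspose_mul_mul_same G

theorem det_ge {w : Matrix (Fin n) (Fin n) ℂ} {c : ℝ} (hc : 0 < c)
    (h : (w - (c : ℂ) • 1).PosSemidef) : c ^ n ≤ w.det.re := by
  have h1 := det_mono_psd (A := (c : ℂ) • (1 : Matrix (Fin n) (Fin n) ℂ)) (B := w)
    (Matrix.PosSemidef.one.smul (by exact_mod_cast hc.le)) h
  rw [det_real_smul, Matrix.det_one, Complex.one_re, mul_one] at h1
  exact h1

/-- upper bounds -/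
theorem det_le {w : Matrix (Fin n) (Fin n) ℂ} {C : ℝ} (hw : w.PosSemidef)
    (h : ((C : ℂ) • 1 - w).PosSemidef) : w.det.re ≤ C ^ n := by
  have h1 := det_mono_psd hw h
  rwa [det_real_smul, Matrix.det_one, Complex.one_re, mul_one] at h1

/-- `w ≥ c > 0` implies `w⁻¹ ≤ c⁻¹` -/
theorem inv_le {w : Matrix (Fin n) (Fin n) ℂ} {c : ℝ} (hc : 0 < c) (hw : w.PosDef)
    (h : (w - (c : ℂ) • 1).PosSemidef) : (((c⁻¹ : ℝ) : ℂ) • 1 - w⁻¹).PosSemidef := by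
  have hu : IsUnit w.det := (Matrix.isUnit_iff_isUnit_det w).1 hw.isUnit
  have hc' : (c : ℂ) ≠ 0 := by exact_mod_cast hc.ne'
  -- `c⁻¹ - w⁻¹ = c (c⁻¹ - w⁻¹)ᴴ (c⁻¹ - w⁻¹) + w⁻¹ (w - c) w⁻¹`
  set D : Matrix (Fin n) (Fin n) ℂ := w⁻¹ with hD
  have hDH : Dᴴ = D := hw.inv.isHermitian.eq
  have a1 : D * w = 1 := Matrix.nonsing_inv_mul w hu
  have a2 : w * D = 1 := Matrix.mul_nonsing_inv w hu
  have e1 : ((c⁻¹ : ℝ) : ℂ) • (1 : Matrix (Fin n) (Fin n) ℂ) - D =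
      ((c : ℂ) • ((((c⁻¹ : ℝ) : ℂ) • 1 - D)ᴴ * (((c⁻¹ : ℝ) : ℂ) • 1 - D))) +
        Dᴴ * (w - (c : ℂ) • 1) * D := by
    rw [Matrix.conjTranspose_sub, Matrix.conjTranspose_smul, Matrix.conjTranspose_one,
      Complex.star_def, Complex.conj_ofReal, hDH]
    simp only [Matrix.sub_mul, Matrix.mul_sub, Matrix.smul_mul, Matrix.mul_smul, Matrix.one_mul,
      Matrix.mul_one, a1, smul_sub, smul_smul]
    push_cast
    have a3 : (c : ℂ) * ((c : ℂ)⁻¹ * (c : ℂ)⁻¹) = (c : ℂ)⁻¹ := by field_simp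
    have a4 : (c : ℂ) * (c : ℂ)⁻¹ = 1 := mul_inv_cancel₀ hc'
    simp only [a3, a4, one_smul]
    abel
  rw [e1]
  refine Matrix.PosSemidef.add ((Matrix.posSemidef_conjTranspose_mul_self _).smul ?_)
    (h.conjTranspose_mul_mul_same D)
  exact_mod_cast hc.le

theorem gram_le {w : Matrix (Fin n) (Fin n) ℂ} {c : ℝ} (hc : 0 < c) (hw : w.PosDef)
    (h : (w - (c : ℂ) • 1).PosSemidef) (G : Matrix (Fin n) (Fin R) ℂ) :
    (Gᴴ * w⁻¹ * G).det.re ≤ c⁻¹ ^ R * (Gᴴ * G).det.re := by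
  rw [← det_real_smul]
  refine det_mono_psd (hw.inv.posSemidef.conjTranspose_mul_mul_same G) ?_
  have e1 : ((c⁻¹ : ℝ) : ℂ) • (Gᴴ * G) - Gᴴ * w⁻¹ * G =
      Gᴴ * (((c⁻¹ : ℝ) : ℂ) • 1 - w⁻¹) * G := by
    simp only [Matrix.mul_sub, Matrix.sub_mul, Matrix.mul_smul, Matrix.smul_mul, Matrix.mul_one]
  rw [e1]
  exact (inv_le hc hw h).conjTranspose_mul_mul_same G

end Vale.Agent.P284.H837.D
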