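import Vale.Agent.P284.H248.Defs
import Mathlib.LinearAlgebra.Matrix.PosDef
import Mathlib.Topology.MetricSpace.ProperSpace
import Mathlib.Analysis.Calculus.ContDiff.Basic

/-!
# P284 (helper837), project D: a finite atlas with frames

`X` compact, `L` a line bundle, `w` a Hermitian metric: finitely many closed balls (for the sup norm) in
charts over which `L` has a frame, with a uniform radius `r` around every point of `X`, and uniform
bounds of the metric, of sections and of forms there.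
-/

open scoped Manifold ContDiff Topology ComplexOrder ComplexConjugate Matrix
open Filter Set Metric

noncomputable section

namespace Vale.Agent.P284.H837.D

open Vale.Agent.P272.K Vale.Agent.P284.H248

variable {n : ℕ}

/-- the Hermitian form of a matrix -/
def qfm (A : Matrix (Fin n) (Fin n) ℂ) (ξ : Cm n) : ℝ := (∑ j, ∑ l, star (ξ j) * A j l * ξ l).re

theorem dot_eq (A : Matrix (Fin n) (Fin n) ℂ) (ξ : Cm n) :
    star ξ ⬝ᵥ (A *ᵥ ξ) = ∑ j, ∑ l, star (ξ j) * A j l * ξ l := by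
  simp only [dotProduct, Matrix.mulVec, Finset.mul_sum, Pi.star_apply, mul_assoc]

theorem qfm_one (ξ : Cm n) : qfm (1 : Matrix (Fin n) (Fin n) ℂ) ξ = ∑ j, ‖ξ j‖ ^ 2 := by
  unfold qfm
  rw [Complex.re_sum]
  refine Finset.sum_congr rfl fun j _ => ?_
  rw [Finset.sum_eq_single j]
  · rw [Matrix.one_apply_eq, mul_one, Complex.star_def, ← Complex.normSq_eq_conj_mul_self,
      Complex.ofReal_re, Complex.normSq_eq_norm_sq]
  · intro b _ hb
    rw [Matrix.one_apply_ne (Ne.symm hb)]; simp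
  · intro h; exact absurd (Finset.mem_univ j) h

theorem qfm_sub_smul (A : Matrix (Fin n) (Fin n) ℂ) (c : ℝ) (B : Matrix (Fin n) (Fin n) ℂ)
    (ξ : Cm n) : qfm (A - (c : ℂ) • B) ξ = qfm A ξ - c * qfm B ξ := by
  unfold qfm
  rw [show c * (∑ j, ∑ l, star (ξ j) * B j l * ξ l).re =
    ((c : ℂ) * ∑ j, ∑ l, star (ξ j) * B j l * ξ l).re from (Complex.re_ofReal_mul _ _).symm,
    ← Complex.sub_re]
  congr 1
  rw [Finset.mul_sum, ← Finset.sum_sub_distrib]
  refine Finset.sum_congr rfl fun j _ => ?_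
  rw [Finset.mul_sum, ← Finset.sum_sub_distrib]
  refine Finset.sum_congr rfl fun l _ => ?_
  simp only [Matrix.sub_apply, Matrix.smul_apply, smul_eq_mul]
  ring

theorem qfm_smul_sub (A : Matrix (Fin n) (Fin n) ℂ) (c : ℝ) (B : Matrix (Fin n) (Fin n) ℂ)
    (ξ : Cm n) : qfm ((c : ℂ) • B - A) ξ = c * qfm B ξ - qfm A ξ := by
  have h : (c : ℂ) • B - A = -(A - (c : ℂ) • B) := by abel
  have h2 : ∀ M : Matrix (Fin n) (Fin n) ℂ, qfm (-M) ξ = -qfm M ξ := by
    intro M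
    unfold qfm
    rw [← Complex.neg_re]
    congr 1
    simp [Finset.sum_neg_distrib]
  rw [h, h2, qfm_sub_smul]; ring

theorem qfm_scale (A : Matrix (Fin n) (Fin n) ℂ) (t : ℝ) (ξ : Cm n) :
    qfm A ((t : ℂ) • ξ) = t ^ 2 * qfm A ξ := by
  unfold qfm
  rw [show t ^ 2 * (∑ j, ∑ l, star (ξ j) * A j l * ξ l).re =
    (((t ^ 2 : ℝ) : ℂ) * ∑ j, ∑ l, star (ξ j) * A j l * ξ l).re from
      (Complex.re_ofReal_mul _ _).symm]
  congr 1
  rw [Finset.mul_sum]
  refine Finset.sum_congr rfl fun j _ => ?_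
  rw [Finset.mul_sum]
  refine Finset.sum_congr rfl fun l _ => ?_
  simp only [Pi.smul_apply, smul_eq_mul, star_mul', Complex.star_def, Complex.conj_ofReal]
  push_cast
  ring

theorem hermitian_real (A : Matrix (Fin n) (Fin n) ℂ) (hA : A.IsHermitian) (ξ : Cm n) :
    (star ξ ⬝ᵥ (A *ᵥ ξ)) = ((qfm A ξ : ℝ) : ℂ) := by
  have h1 : star (star ξ ⬝ᵥ (A *ᵥ ξ)) = star ξ ⬝ᵥ (A *ᵥ ξ) := by
    rw [← Matrix.star_dotProduct, Matrix.star_mulVec, hA.eq, ← Matrix.dotProduct_mulVec]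
  have h2 : ((star ξ ⬝ᵥ (A *ᵥ ξ)).re : ℂ) = star ξ ⬝ᵥ (A *ᵥ ξ) :=
    Complex.conj_eq_iff_re.1 h1
  rw [← h2, dot_eq]
  rfl

theorem psd_of (A : Matrix (Fin n) (Fin n) ℂ) (hA : A.IsHermitian) (h : ∀ ξ : Cm n, 0 ≤ qfm A ξ) :
    A.PosSemidef := by
  refine Matrix.PosSemidef.of_dotProduct_mulVec_nonneg hA fun ξ => ?_
  rw [hermitian_real A hA]
  exact_mod_cast h ξ

/-- a quadratic inequality has to be checked on the unit sphere only -/
theorem ge_of_sphere (A : Matrix (Fin n) (Fin n) ℂ) {c : ℝ}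
    (h : ∀ ξ : Cm n, ∑ j, ‖ξ j‖ ^ 2 = 1 → c ≤ qfm A ξ) (ξ : Cm n) :
    c * ∑ j, ‖ξ j‖ ^ 2 ≤ qfm A ξ := by
  rcases eq_or_ne ξ 0 with rfl | hξ
  · simp [qfm]
  · set S : ℝ := ∑ j, ‖ξ j‖ ^ 2 with hS
    have hS0 : 0 < S := by
      obtain ⟨j, hj⟩ := Function.ne_iff.1 hξ
      have h1 : ‖ξ j‖ ^ 2 ≤ S := Finset.single_le_sum (f := fun j => ‖ξ j‖ ^ 2)
        (fun _ _ => by positivity) (Finset.mem_univ j)
      have h2 : 0 < ‖ξ j‖ ^ 2 := by
        have : 0 < ‖ξ j‖ := norm_pos_iff.2 hj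
        positivity
      linarith
    have hq : 0 < Real.sqrt S := Real.sqrt_pos.2 hS0
    have h1 := h (((Real.sqrt S)⁻¹ : ℝ) • ξ) (by
      have : ∀ j, ‖(((Real.sqrt S)⁻¹ : ℝ) • ξ) j‖ ^ 2 = S⁻¹ * ‖ξ j‖ ^ 2 := by
        intro j
        rw [Pi.smul_apply, norm_smul, Real.norm_of_nonneg (by positivity), mul_pow, inv_pow,
          Real.sq_sqrt hS0.le]
      rw [Finset.sum_congr rfl fun j _ => this j, ← Finset.mul_sum, ← hS]
      exact inv_mul_cancel₀ hS0.ne')
    have h2 : (((Real.sqrt S)⁻¹ : ℝ) • ξ) = ((((Real.sqrt S)⁻¹ : ℝ) : ℂ) • ξ) := by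
      ext j; simp
    rw [h2, qfm_scale, inv_pow, Real.sq_sqrt hS0.le] at h1
    have h3 : qfm A ξ = S * (S⁻¹ * qfm A ξ) := by
      rw [← mul_assoc, mul_inv_cancel₀ hS0.ne', one_mul]
    rw [h3, mul_comm c S]
    exact mul_le_mul_of_nonneg_left h1 hS0.le

theorem sphere_compact : IsCompact {ξ : Cm n | ∑ j, ‖ξ j‖ ^ 2 = 1} := by
  refine Metric.isCompact_of_isClosed_isBounded ?_ ?_
  · exact isClosed_eq (by fun_prop) continuous_const
  · refine (Metric.isBounded_closedBall (x := (0 : Cm n)) (r := 1)).subset fun ξ hξ => ?_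
    rw [mem_closedBall_zero_iff, pi_norm_le_iff_of_nonneg zero_le_one]
    intro j
    have h1 : ‖ξ j‖ ^ 2 ≤ 1 := by
      rw [← (hξ : ∑ j, ‖ξ j‖ ^ 2 = 1)]
      exact Finset.single_le_sum (f := fun j => ‖ξ j‖ ^ 2) (fun _ _ => by positivity)
        (Finset.mem_univ j)
    nlinarith [norm_nonneg (ξ j)]

/-- a continuous positive function on a compact set is bounded below by a positive constant -/
theorem exists_pos_lb {T : Type*} [TopologicalSpace T] {S : Set T} (hS : IsCompact S) {f : T → ℝ}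
    (hf : ContinuousOn f S) (h0 : ∀ x ∈ S, 0 < f x) : ∃ c > 0, ∀ x ∈ S, c ≤ f x := by
  rcases S.eq_empty_or_nonempty with rfl | hne
  · exact ⟨1, one_pos, fun x hx => absurd hx (Set.notMem_empty x)⟩
  · obtain ⟨x, hx, hm⟩ := hS.exists_isMinOn hne hf
    exact ⟨f x, h0 x hx, fun y hy => hm hy⟩

theorem exists_pos_ub {T : Type*} [TopologicalSpace T] {S : Set T} (hS : IsCompact S) {f : T → ℝ}
    (hf : ContinuousOn f S) : ∃ C > 0, ∀ x ∈ S, f x ≤ C := by
  rcases S.eq_empty_or_nonempty with rfl | hne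
  · exact ⟨1, one_pos, fun x hx => absurd hx (Set.notMem_empty x)⟩
  · obtain ⟨x, hx, hm⟩ := hS.exists_isMaxOn hne hf
    exact ⟨|f x| + 1, by positivity, fun y hy => (hm hy).trans ((le_abs_self _).trans (by linarith))⟩

/-- uniform bounds of a continuous positive definite matrix function on a compact set -/
theorem exists_bounds {K : Set (Cm n)} (hK : IsCompact K) {A : Cm n → Matrix (Fin n) (Fin n) ℂ}
    (hc : ∀ y ∈ K, ∀ i j, ContinuousAt (fun z => A z i j) y) (hp : ∀ y ∈ K, (A y).PosDef) :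
    ∃ c C : ℝ, 0 < c ∧ 0 < C ∧ (∀ y ∈ K, (A y - (c : ℂ) • 1).PosSemidef) ∧
      ∀ y ∈ K, ((C : ℂ) • 1 - A y).PosSemidef := by
  have hcomp : IsCompact (K ×ˢ {ξ : Cm n | ∑ j, ‖ξ j‖ ^ 2 = 1}) := hK.prod sphere_compact
  have hcont : ContinuousOn (fun q : Cm n × Cm n => qfm (A q.1) q.2)
      (K ×ˢ {ξ : Cm n | ∑ j, ‖ξ j‖ ^ 2 = 1}) := by
    intro q hq
    refine ContinuousAt.continuousWithinAt ?_
    refine Complex.continuous_re.continuousAt.comp ?_
    refine tendsto_finsetSum _ fun j _ => tendsto_finsetSum _ fun l _ => ?_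
    have h1 : ContinuousAt (fun q : Cm n × Cm n => A q.1 j l) q :=
      ContinuousAt.comp (f := Prod.fst) (hc q.1 hq.1 j l) continuousAt_fst
    have h2 : ContinuousAt (fun q : Cm n × Cm n => star (q.2 j)) q := by fun_prop
    have h3 : ContinuousAt (fun q : Cm n × Cm n => q.2 l) q := by fun_prop
    exact (h2.mul h1).mul h3
  have hpos : ∀ q ∈ K ×ˢ {ξ : Cm n | ∑ j, ‖ξ j‖ ^ 2 = 1}, 0 < qfm (A q.1) q.2 := by
    rintro ⟨y, ξ⟩ ⟨hy, hξ⟩
    have hne : ξ ≠ 0 := by
      rintro rfl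
      simp at hξ
    have h1 := (hp y hy).dotProduct_mulVec_pos hne
    rw [hermitian_real _ (hp y hy).isHermitian] at h1
    exact_mod_cast h1
  obtain ⟨c, hc0, hc1⟩ := exists_pos_lb hcomp hcont hpos
  obtain ⟨C, hC0, hC1⟩ := exists_pos_ub hcomp hcont
  have hone : ∀ r : ℝ, ((r : ℂ) • (1 : Matrix (Fin n) (Fin n) ℂ)).IsHermitian := by
    intro r
    rw [Matrix.IsHermitian, Matrix.conjTranspose_smul, Matrix.conjTranspose_one, Complex.star_def,
      Complex.conj_ofReal]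
  refine ⟨c, C, hc0, hC0, fun y hy => ?_, fun y hy => ?_⟩
  · refine psd_of _ ((hp y hy).isHermitian.sub (hone c)) fun ξ => ?_
    rw [qfm_sub_smul, qfm_one]
    have := ge_of_sphere (A y) (c := c) (fun ξ hξ => hc1 (y, ξ) ⟨hy, hξ⟩) ξ
    linarith
  · refine psd_of _ ((hone C).sub (hp y hy).isHermitian) fun ξ => ?_
    rw [qfm_smul_sub, qfm_one]
    have h1 : ∀ (M : Matrix (Fin n) (Fin n) ℂ) (ξ : Cm n), qfm (-M) ξ = -qfm M ξ := by
      intro M ξ
      have := qfm_smul_sub M 0 0 ξ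
      simpa using this
    have := ge_of_sphere (-A y) (c := -C) (fun ξ hξ => by
      rw [h1]; have := hC1 (y, ξ) ⟨hy, hξ⟩; linarith) ξ
    rw [h1] at this
    linarith

section
variable {X : Type} [TopologicalSpace X] [ChartedSpace (Cm n) X]

/-- A finite atlas of `X` by closed balls in charts over which `L` has a frame, with a uniform radius
and uniform bounds of the metric. -/
structure Atl (L : LineBundle n X) (w : Chart n X → Cm n → Matrix (Fin n) (Fin n) ℂ) where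
  N : ℕ
  e : Fin N → Chart n X
  i : Fin N → L.ι
  p : Fin N → Cm n
  ρ : Fin N → ℝ
  r : ℝ
  c : ℝ
  C : ℝ
  hr : 0 < r
  hc : 0 < c
  hC : 0 < C
  mem : ∀ j, e j ∈ atlas (Cm n) X
  sub : ∀ j, closedBall (p j) (ρ j) ⊆ (e j).target
  frame : ∀ j, ∀ y ∈ closedBall (p j) (ρ j), (e j).symm y ∈ L.U (i j)
  cover : ∀ x, ∃ j, At (e j) x ∧ closedBall (e j x) r ⊆ closedBall (p j) (ρ j)
  lo : ∀ j, ∀ y ∈ closedBall (p j) (ρ j), (w (e j) y - (c : ℂ) • 1).PosSemidef
  hi : ∀ j, ∀ y ∈ closedBall (p j) (ρ j), ((C : ℂ) • 1 - w (e j) y).PosSemidef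

variable {L : LineBundle n X} {w : Chart n X → Cm n → Matrix (Fin n) (Fin n) ℂ}

theorem Atl.at' (A : Atl L w) {j : Fin A.N} {y : Cm n} (hy : y ∈ closedBall (A.p j) (A.ρ j)) :
    At (A.e j) ((A.e j).symm y) :=
  ⟨A.mem j, (A.e j).map_target (A.sub j hy)⟩

theorem Atl.inv (A : Atl L w) {j : Fin A.N} {y : Cm n} (hy : y ∈ closedBall (A.p j) (A.ρ j)) :
    A.e j ((A.e j).symm y) = y := (A.e j).right_inv (A.sub j hy)

/-- local version -/
theorem exists_ball (L : LineBundle n X) (hw : IsHermitian w) (x : X) :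
    ∃ (e : Chart n X) (i : L.ι) (ρ c C : ℝ), 0 < ρ ∧ 0 < c ∧ 0 < C ∧ At e x ∧
      closedBall (e x) ρ ⊆ e.target ∧ (∀ y ∈ closedBall (e x) ρ, e.symm y ∈ L.U i) ∧
      (∀ y ∈ closedBall (e x) ρ, (w e y - (c : ℂ) • 1).PosSemidef) ∧
      ∀ y ∈ closedBall (e x) ρ, ((C : ℂ) • 1 - w e y).PosSemidef := by
  obtain ⟨i, hi⟩ := L.cover x
  set e : Chart n X := chartAt (Cm n) x with he
  have hx : At e x := ⟨chart_mem_atlas (Cm n) x, mem_chart_source (Cm n) x⟩
  have hopen : IsOpen (e.target ∩ e.symm ⁻¹' (L.U i)) :=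
    e.isOpen_inter_preimage_symm (L.isOpen i)
  have hmem : e x ∈ e.target ∩ e.symm ⁻¹' (L.U i) :=
    ⟨e.map_source hx.2, by rw [mem_preimage, e.left_inv hx.2]; exact hi⟩
  obtain ⟨ρ, hρ, hsub⟩ := Metric.nhds_basis_closedBall.mem_iff.1 (hopen.mem_nhds hmem)
  have hAt : ∀ y ∈ closedBall (e x) ρ, At e (e.symm y) := fun y hy =>
    ⟨hx.1, e.map_target (hsub hy).1⟩
  have hinv : ∀ y ∈ closedBall (e x) ρ, e (e.symm y) = y := fun y hy =>
    e.right_inv (hsub hy).1
  obtain ⟨c, C, hc, hC, h1, h2⟩ := exists_bounds (isCompact_closedBall (e x) ρ) (A := w e)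
    (fun y hy i j => by
      have := (hw.smooth e _ (hAt y hy) i j).continuousAt
      rwa [hinv y hy] at this)
    (fun y hy => by
      have := hw.posDef e _ (hAt y hy)
      rwa [hinv y hy] at this)
  exact ⟨e, i, ρ, c, C, hρ, hc, hC, hx, fun y hy => (hsub hy).1, fun y hy => (hsub hy).2, h1, h2⟩

theorem smul_one_mono {A : Matrix (Fin n) (Fin n) ℂ} {c c' : ℝ} (h : c' ≤ c)
    (hA : (A - (c : ℂ) • 1).PosSemidef) : (A - (c' : ℂ) • 1).PosSemidef := by
  have h1 : A - (c' : ℂ) • 1 = (A - (c : ℂ) • 1) + ((c - c' : ℝ) : ℂ) • 1 := by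
    push_cast; module
  rw [h1]
  refine hA.add (Matrix.PosSemidef.one.smul ?_)
  exact_mod_cast sub_nonneg.2 h

theorem smul_one_mono' {A : Matrix (Fin n) (Fin n) ℂ} {c c' : ℝ} (h : c ≤ c')
    (hA : ((c : ℂ) • 1 - A).PosSemidef) : ((c' : ℂ) • 1 - A).PosSemidef := by
  have h1 : (c' : ℂ) • 1 - A = ((c : ℂ) • 1 - A) + ((c' - c : ℝ) : ℂ) • 1 := by
    push_cast; module
  rw [h1]
  refine hA.add (Matrix.PosSemidef.one.smul ?_)
  exact_mod_cast sub_nonneg.2 h

/-- the finite atlas exists on a compact manifold -/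
theorem exists_atl [CompactSpace X] (L : LineBundle n X) (hw : IsHermitian w) :
    Nonempty (Atl L w) := by
  choose e i ρ c C hρ hc hC hAt hsub hfr hlo hhi using exists_ball L hw
  -- the smaller balls cover
  set O : X → Set X := fun x => (e x).source ∩ (e x) ⁻¹' (ball (e x x) (ρ x / 2)) with hO
  have hOo : ∀ x, IsOpen (O x) := fun x => (e x).isOpen_inter_preimage isOpen_ball
  have hOm : ∀ x, x ∈ O x := fun x => ⟨(hAt x).2, mem_ball_self (half_pos (hρ x))⟩
  obtain ⟨t, ht⟩ := isCompact_univ.elim_finite_subcover O hOo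
    (fun x _ => mem_iUnion.2 ⟨x, hOm x⟩)
  set f : Fin t.card → X := fun j => (t.equivFin.symm j : X) with hf
  have hft : ∀ x ∈ t, ∃ j, f j = x := fun x hx =>
    ⟨t.equivFin ⟨x, hx⟩, by simp [hf]⟩
  have hmin : ∀ g : X → ℝ, (∀ x, 0 < g x) → ∃ r > 0, ∀ j, r ≤ g (f j) := by
    intro g hg
    obtain ⟨r, hr, hr1⟩ := exists_pos_lb (S := (Finset.univ : Finset (Fin t.card)))
      (Finset.finite_toSet _).isCompact (f := fun j => g (f j))
      (continuous_of_discreteTopology.continuousOn) (fun j _ => hg _)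
    exact ⟨r, hr, fun j => hr1 j (by simp)⟩
  have hmax : ∀ g : X → ℝ, ∃ r > 0, ∀ j, g (f j) ≤ r := by
    intro g
    obtain ⟨r, hr, hr1⟩ := exists_pos_ub (S := (Finset.univ : Finset (Fin t.card)))
      (Finset.finite_toSet _).isCompact (f := fun j => g (f j))
      (continuous_of_discreteTopology.continuousOn)
    exact ⟨r, hr, fun j => hr1 j (by simp)⟩
  obtain ⟨r, hr, hr1⟩ := hmin (fun x => ρ x / 2) fun x => half_pos (hρ x)
  obtain ⟨c', hc', hc1⟩ := hmin c hc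
  obtain ⟨C', hC', hC1⟩ := hmax C
  exact ⟨{
    N := t.card
    e := fun j => e (f j)
    i := fun j => i (f j)
    p := fun j => e (f j) (f j)
    ρ := fun j => ρ (f j)
    r := r
    c := c'
    C := C'
    hr := hr
    hc := hc'
    hC := hC'
    mem := fun j => (hAt (f j)).1
    sub := fun j => hsub (f j)
    frame := fun j => hfr (f j)
    cover := fun x => by
      obtain ⟨x', hx'⟩ := mem_iUnion.1 (ht (mem_univ x))
      obtain ⟨hx't, hxO⟩ := mem_iUnion.1 hx'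
      obtain ⟨j, hj⟩ := hft x' hx't
      refine ⟨j, ⟨(hAt (f j)).1, ?_⟩, ?_⟩
      · rw [hj]; exact hxO.1
      · refine closedBall_subset_closedBall' ?_
        have h1 := hr1 j
        have h2 : dist (e (f j) x) (e (f j) (f j)) < ρ (f j) / 2 := by
          rw [hj]; exact hxO.2
        linarith
    lo := fun j y hy => smul_one_mono (hc1 j) (hlo (f j) y hy)
    hi := fun j y hy => smul_one_mono' (hC1 j) (hhi (f j) y hy) }⟩

/-- bound of a finite family of continuous functions on the balls of the atlas -/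
theorem Atl.bd (A : Atl L w) {g : Fin A.N → Cm n → ℝ}
    (hg : ∀ j, ∀ y ∈ closedBall (A.p j) (A.ρ j), ContinuousAt (g j) y) :
    ∃ M > 0, ∀ j, ∀ y ∈ closedBall (A.p j) (A.ρ j), g j y ≤ M := by
  choose M hM hM1 using fun j => exists_pos_ub (isCompact_closedBall (A.p j) (A.ρ j))
    (f := g j) (fun y hy => (hg j y hy).continuousWithinAt)
  refine ⟨(∑ j, M j) + 1, by
    have := Finset.sum_nonneg fun j (_ : j ∈ Finset.univ) => (hM j).le
    linarith, fun j y hy => (hM1 j y hy).trans ?_⟩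
  have := Finset.single_le_sum (f := M) (fun j _ => (hM j).le) (Finset.mem_univ j)
  linarith

/-- bound of the sections -/
theorem Atl.sec_bd (A : Atl L w) {k : ℕ} {ι : Type} [Fintype ι] (s : ι → Sec L k) :
    ∃ M > 0, ∀ j, ∀ y ∈ closedBall (A.p j) (A.ρ j), ∀ a,
      ‖(s a).f (A.i j) ((A.e j).symm y)‖ ≤ M := by
  obtain ⟨M, hM, hM1⟩ := A.bd (g := fun j y => ∑ a, ‖(s a).f (A.i j) ((A.e j).symm y)‖)
    (fun j y hy => tendsto_finsetSum _ fun a _ => by
      have h1 := ((s a).holo (A.i j) (A.e j) _ (A.at' hy) (A.frame j y hy)).continuousAt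
      rw [A.inv hy] at h1
      exact h1.norm)
  exact ⟨M, hM, fun j y hy a => (Finset.single_le_sum
    (f := fun a => ‖(s a).f (A.i j) ((A.e j).symm y)‖) (fun _ _ => norm_nonneg _)
    (Finset.mem_univ a)).trans (hM1 j y hy)⟩

/-- bound of the coefficients of the form -/
theorem Atl.form_bd (A : Atl L w) {R : ℕ} (φ : Mor L R) :
    ∃ M > 0, ∀ j, ∀ y ∈ closedBall (A.p j) (A.ρ j), ∀ v : Fin R → Fin n,
      ‖φ.form (A.i j) (A.e j) y fun b => Pi.single (v b) 1‖ ≤ M := by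
  obtain ⟨M, hM, hM1⟩ := A.bd
    (g := fun j y => ∑ v : Fin R → Fin n, ‖φ.form (A.i j) (A.e j) y fun b => Pi.single (v b) 1‖)
    (fun j y hy => tendsto_finsetSum _ fun v _ => by
      have h1 := (φ.holo (A.i j) (A.e j) _ (A.at' hy) (A.frame j y hy)
        fun b => Pi.single (v b) 1).continuousAt
      rw [A.inv hy] at h1
      exact h1.norm)
  exact ⟨M, hM, fun j y hy v => (Finset.single_le_sum
    (f := fun v : Fin R → Fin n => ‖φ.form (A.i j) (A.e j) y fun b => Pi.single (v b) 1‖)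
    (fun _ _ => norm_nonneg _) (Finset.mem_univ v)).trans (hM1 j y hy)⟩

end

end Vale.Agent.P284.H837.D
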